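import Vale.Agent.P011UG.Orb

/-!
Outside of type `A` the orbits of the diagram automorphisms consist of orthogonal nodes.
-/

set_option autoImplicit false
set_option linter.all false

namespace Vale.Agent.P011UG

open Matrix Vale.Agent.P183CH Vale.Agent.P011U

/-- a node with a multiple bond or with three neighbours -/
def Sp {n : ℕ} (C : Matrix (Fin n) (Fin n) ℤ) (u : Fin n) : Prop :=
  (∃ j, C u j ≤ -2) ∨ ∃ a b c, a ≠ b ∧ a ≠ c ∧ b ≠ c ∧ C u a < 0 ∧ C u b < 0 ∧ C u c < 0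

/-- bipartite with one special node -/
def Gd {n : ℕ} (C : Matrix (Fin n) (Fin n) ℤ) : Prop :=
  (∃ col : Fin n → ℕ, ∀ i j, i ≠ j → C i j ≠ 0 → col i % 2 ≠ col j % 2) ∧
    ∃ v, Sp C v ∧ ∀ u, Sp C u → u = v

theorem ort_of {R : RS} (hR : R.Ok) {n : ℕ} {C : Matrix (Fin n) (Fin n) ℤ} {e : Fin R.r ≃ Fin n}
    (h : Ty R C e) (hC : Gd C) : Ort R := fun π i hπ ne => by
  obtain ⟨⟨col, h1⟩, v, h2, h3⟩ := hC
  have h4 : ∀ i j, i ≠ j → R.A i j ≠ 0 → col (e i) % 2 ≠ col (e j) % 2 := fun i j a b =>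
    h1 _ _ (e.injective.ne a) (h i j ▸ b)
  let ρ := (e.symm.trans π).trans e
  have h5 : ∀ a b, C (ρ a) (ρ b) = C a b := fun a b => by
    rw [← e.apply_symm_apply a, ← e.apply_symm_apply b, ← h, ← hπ, h]
    simp [ρ]
  have h6 : ρ v = v := h3 _ (h2.imp (fun ⟨j, a⟩ => ⟨ρ j, by rwa [h5]⟩)
    fun ⟨a, b, c, h⟩ => ⟨ρ a, ρ b, ρ c, by simpa only [h5, ρ.injective.ne_iff] using h⟩)
  have h7 := hR.conn (fun i => col (e (π i)) % 2 = col (e i) % 2) (e.symm v) i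
    (by rw [e.apply_symm_apply]; exact congrArg (col · % 2) h6) fun i j a b => by
      by_cases c : j = i
      · rwa [c]
      · have := h4 j i c b
        have := h4 _ _ (π.injective.ne c) (hπ j i ▸ b)
        omega
  by_contra c
  exact h4 _ _ ne.symm c h7.symm

theorem gd_B {n : ℕ} (h : 2 ≤ n) : Gd (CartanMatrix.B n) := by
  refine ⟨⟨fun i => i, fun i j a b => ?_⟩, ⟨n - 2, by omega⟩, .inl ⟨⟨n - 1, by omega⟩, ?_⟩, ?_⟩
  · simp only [CartanMatrix.B, of_apply, Fin.ext_iff, ne_eq] at a b ⊢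
    split_ifs at b <;> omega
  · simp only [CartanMatrix.B, of_apply, Fin.ext_iff]
    split_ifs <;> omega
  · rintro u (⟨j, a⟩ | ⟨a, b, c, h1, h2, h3, h4, h5, h6⟩)
    · simp only [CartanMatrix.B, of_apply, Fin.ext_iff] at a ⊢
      split_ifs at a <;> omega
    · simp only [CartanMatrix.B, of_apply, Fin.ext_iff, ne_eq] at *
      split_ifs at h4 h5 h6 <;> omega

theorem gd_C {n : ℕ} (h : 3 ≤ n) : Gd (CartanMatrix.C n) := by
  refine ⟨⟨fun i => i, fun i j a b => ?_⟩, ⟨n - 1, by omega⟩, .inl ⟨⟨n - 2, by omega⟩, ?_⟩, ?_⟩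
  · simp only [CartanMatrix.C, of_apply, Fin.ext_iff, ne_eq] at a b ⊢
    split_ifs at b <;> omega
  · simp only [CartanMatrix.C, of_apply, Fin.ext_iff]
    split_ifs <;> omega
  · rintro u (⟨j, a⟩ | ⟨a, b, c, h1, h2, h3, h4, h5, h6⟩)
    · simp only [CartanMatrix.C, of_apply, Fin.ext_iff] at a ⊢
      split_ifs at a <;> omega
    · simp only [CartanMatrix.C, of_apply, Fin.ext_iff, ne_eq] at *
      split_ifs at h4 h5 h6 <;> omega

theorem D_neg {n : ℕ} {u j : Fin n} (h : CartanMatrix.D n u j ≠ 0) (e : u ≠ j) :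
    CartanMatrix.D n u j = -1 ∧ ((u.1 + 1 = j ∧ j.1 + 2 < n) ∨ (j.1 + 1 = u ∧ u.1 + 2 < n) ∨
      (u.1 + 3 = n ∧ (j.1 + 2 = n ∨ j.1 + 1 = n)) ∨ (j.1 + 3 = n ∧ (u.1 + 2 = n ∨ u.1 + 1 = n))) := by
  simp only [CartanMatrix.D, of_apply, if_neg e] at h ⊢
  split_ifs at h ⊢ <;> simp_all

theorem gd_D {n : ℕ} (h : 4 ≤ n) : Gd (CartanMatrix.D n) := by
  have d : ∀ {u j : Fin n}, CartanMatrix.D n u j < 0 → u ≠ j := fun {u j} a e => by
    simp [CartanMatrix.D, e] at a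
  refine ⟨⟨fun i => min i (n - 2), fun i j a b => ?_⟩, ⟨n - 3, by omega⟩, .inr ⟨⟨n - 4, by omega⟩,
    ⟨n - 2, by omega⟩, ⟨n - 1, by omega⟩, ?_⟩, ?_⟩
  · have := (D_neg b a).2
    dsimp only
    omega
  · simp only [CartanMatrix.D, of_apply, Fin.ext_iff, ne_eq]
    refine ⟨by omega, by omega, by omega, ?_, ?_, ?_⟩ <;> split_ifs <;> omega
  · rintro u (⟨j, a⟩ | ⟨a, b, c, h1, h2, h3, h4, h5, h6⟩)
    · have := (D_neg (by omega) (d (by omega : CartanMatrix.D n u j < 0))).1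
      omega
    · have := (D_neg h4.ne (d h4)).2
      have := (D_neg h5.ne (d h5)).2
      have := (D_neg h6.ne (d h6)).2
      simp only [Fin.ext_iff, ne_eq] at *
      omega

/-- an entry -/
def ap {n : ℕ} (C : Matrix (Fin n) (Fin n) ℤ) (i j : Fin n) : ℤ := C i j

theorem gd_of {n : ℕ} {C : Matrix (Fin n) (Fin n) ℤ} (col : Fin n → ℕ) (v : Fin n)
    (h1 : ∀ i j, i = j ∨ ap C i j = 0 ∨ col i % 2 ≠ col j % 2)
    (h2 : ∀ u, u = v ↔ (∃ j, ap C u j ≤ -2) ∨ ∃ a, ap C u a < 0 ∧ ∃ b, ap C u b < 0 ∧ a ≠ b ∧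
      ∃ c, ap C u c < 0 ∧ a ≠ c ∧ b ≠ c) : Gd C :=
  ⟨⟨col, fun i j a b => ((h1 i j).resolve_left a).resolve_left b⟩, v,
    ((h2 v).1 rfl).imp_right fun ⟨a, p, b, q, r, c, s, t, u⟩ => ⟨a, b, c, r, t, u, p, q, s⟩,
    fun u a => (h2 u).2 (a.imp_right fun ⟨a, b, c, r, t, u, p, q, s⟩ => ⟨a, p, b, q, r, c, s, t, u⟩)⟩

theorem ort (h : CLS) {R : RS} (hR : R.Ok) (hA : ¬TyA R) : Ort R := by
  rcases h R hR with h | ⟨n, e, a, h⟩ | ⟨n, e, a, h⟩ | ⟨n, e, a, h⟩ | ⟨e, h⟩ | ⟨e, h⟩ | ⟨e, h⟩ |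
    ⟨e, h⟩ | ⟨e, h⟩
  · exact absurd h hA
  · exact ort_of hR h (gd_B a)
  · exact ort_of hR h (gd_C a)
  · exact ort_of hR h (gd_D a)
  · exact ort_of hR h (gd_of ![0, 1, 1, 0, 1, 0] 3 (by decide) (by decide))
  · exact ort_of hR h (gd_of ![0, 1, 1, 0, 1, 0, 1] 3 (by decide) (by decide))
  · exact ort_of hR h (gd_of ![0, 1, 1, 0, 1, 0, 1, 0] 3 (by decide) (by decide))
  · exact ort_of hR h (gd_of ![0, 1, 0, 1] 1 (by decide) (by decide))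
  · exact ort_of hR h (gd_of ![0, 1] 0 (by decide) (by decide))

end Vale.Agent.P011UG
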