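import Vale.Agent.P011UG.Abs

/-!
Fixed chambers of a group of pinned automorphisms, and the opposite chamber.
-/

set_option autoImplicit false
set_option linter.all false

namespace Vale.Agent.P011UG

open Matrix Subgroup Vale.Agent.P183CH Vale.Agent.P183CH.RG Vale.Agent.P011U

variable {R : RS} {K G : Type} [Field K] [Group G] {Γ : RG R K G} {π : Equiv.Perm (Fin R.r)}
  {c : Fin R.r → Kˣ} {w w' : R.Aut} {γ : R.Q} {g n y : G} {i j : Fin R.r}

/-- products of negative simple root elements -/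
def Y (Γ : RG R K G) (l : List (Fin R.r)) (t : K) : G := (l.map fun j => Γ.x (-R.α j) t).prod

theorem Y_cons (j : Fin R.r) (l : List (Fin R.r)) (t : K) :
    Y Γ (j :: l) t = Γ.x (-R.α j) t * Y Γ l t := by simp [Y]

theorem Y_append (l l' : List (Fin R.r)) (t : K) : Y Γ (l ++ l') t = Y Γ l t * Y Γ l' t := by
  simp [Y]

/-- The orbits of diagram automorphisms consist of orthogonal nodes. -/
def Ort (R : RS) : Prop := ∀ π i, Dg R π → π i ≠ i → R.A i (π i) = 0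

/-- a group of pinned automorphisms -/
structure Pg (Γ : RG R K G) {ι : Type} [Group ι] (a : ι →* MulAut G) (σ : ι → K ≃+* K)
    (p : ι → Equiv.Perm (Fin R.r)) : Prop where
  std : ∀ τ, Std Γ (a τ) (σ τ) 1 1 (p τ)
  one : p 1 = 1
  mul : ∀ τ τ', p (τ * τ') = p τ * p τ'

variable (hR : R.Ok) (hΓ : Γ.Ok)
include hR hΓ

theorem Cell.ups : ∀ (l : List (Fin R.r)) {w : R.Aut} {g : G}, Cell Γ w g → l.Nodup →
    (∀ i ∈ l, ∀ j ∈ l, i ≠ j → R.A i j = 0) → (∀ j ∈ l, 0 ≤ w (R.α j)) →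
    ∃ w', Cell Γ w' (g * Y Γ l 1) ∧ R.len w' = R.len w + l.length
  | [], w, g, h, _, _, _ => ⟨w, by simpa [Y] using h, rfl⟩
  | j :: l, w, g, h, h1, h2, h3 => by
    obtain ⟨h4, h5⟩ := List.nodup_cons.1 h1
    obtain ⟨w', a, b⟩ := Cell.ups l (h.up hR hΓ (h3 j (by simp)) one_ne_zero) h5
      (fun i hi j hj => h2 i (by simp [hi]) j (by simp [hj])) fun i hi => by
        rw [RS.mul_app, hR.sE_eq, RS.pr_α, h2 i (by simp [hi]) j (by simp) fun e => h4 (e ▸ hi),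
          zero_smul, sub_zero]
        exact h3 i (by simp [hi])
    refine ⟨w', by rwa [Y_cons, ← mul_assoc], ?_⟩
    rw [b, hR.len_mul_pos h.mem_W (h3 j (by simp)), List.length_cons]
    omega

variable {ι : Type} [Group ι] {a : ι →* MulAut G} {σ : ι → K ≃+* K} {p : ι → Equiv.Perm (Fin R.r)}
  (P : Pg Γ a σ p)
include P

theorem orbit (ho : ∀ τ i, p τ i ≠ i → R.A i (p τ i) = 0) (i : Fin R.r) :
    ∃ l : List (Fin R.r), l.Nodup ∧ i ∈ l ∧
    (∀ j ∈ l, ∃ τ, j = p τ i) ∧ (∀ i ∈ l, ∀ j ∈ l, i ≠ j → R.A i j = 0) ∧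
    ∀ t, (∀ τ, σ τ t = t) → ∀ τ, a τ (Y Γ l t) = Y Γ l t := by
  classical
  let O : Finset (Fin R.r) := Finset.univ.filter fun j => ∃ τ, j = p τ i
  have m : ∀ j, j ∈ O.toList ↔ ∃ τ, j = p τ i := fun j => by simp [O]
  have iv : ∀ τ j, p τ (p τ⁻¹ j) = j := fun τ j => by
    rw [← Equiv.Perm.mul_apply, ← P.mul, mul_inv_cancel, P.one]; rfl
  have o : ∀ i ∈ O.toList, ∀ j ∈ O.toList, i ≠ j → R.A i j = 0 := fun j hj j' hj' ne => by
    obtain ⟨τ, rfl⟩ := (m _).1 hj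
    obtain ⟨τ', rfl⟩ := (m _).1 hj'
    have e : p (τ' * τ⁻¹) (p τ i) = p τ' i := by
      rw [← Equiv.Perm.mul_apply, ← P.mul, inv_mul_cancel_right]
    have := ho (τ' * τ⁻¹) (p τ i) (e ▸ ne.symm)
    rwa [e] at this
  refine ⟨O.toList, O.nodup_toList, (m i).2 ⟨1, by rw [P.one]; rfl⟩, fun j => (m j).1, o,
    fun t ht τ => ?_⟩
  have e : a τ (Y Γ O.toList t) = Y Γ (O.toList.map (p τ)) t := by
    rw [Y, Y, map_list_prod, List.map_map, List.map_map]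
    exact congrArg _ (List.map_congr_left fun j _ => by
      simpa [ht τ] using ((P.std τ).2 j t).2)
  rw [e]
  refine (List.Perm.prod_eq' (List.Perm.map _ ?_) ?_).symm
  · refine (List.perm_ext_iff_of_nodup O.nodup_toList (O.nodup_toList.map (p τ).injective)).2
      fun j => ?_
    rw [List.mem_map, m]
    refine ⟨fun ⟨τ', e⟩ => ⟨p τ⁻¹ j, (m _).2 ⟨τ⁻¹ * τ', by rw [e, P.mul]; rfl⟩, iv τ j⟩, ?_⟩
    rintro ⟨j', h1, rfl⟩
    obtain ⟨τ', rfl⟩ := (m _).1 h1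
    exact ⟨τ * τ', by rw [P.mul]; rfl⟩
  · rw [List.pairwise_map]
    exact O.nodup_toList.imp_of_mem fun h1 h2 ne => comm_neg hR hΓ (o _ h1 _ h2 ne) t t

theorem reach (ho : ∀ τ i, p τ i ≠ i → R.A i (p τ i) = 0) :
    ∀ (m : ℕ) {g : G} {w : R.Aut}, Cell Γ w g →
    (∀ τ, a τ g * g⁻¹ ∈ Γ.Bo) → R.Φ.card ≤ R.len w + m → ∃ l : List (Fin R.r),
      (∀ t, (∀ τ, σ τ t = t) → ∀ τ, a τ (Y Γ l t) = Y Γ l t) ∧
      ∃ w', R.Lg Set.univ w' ∧ Cell Γ w' (g * Y Γ l 1) := by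
  intro m
  induction m using Nat.strong_induction_on with
  | _ m ih =>
    intro g w h hg hm
    by_cases e : ∀ j, w (R.α j) ≤ 0
    · exact ⟨[], fun t _ τ => by simp [Y], w, ⟨h.mem_W, fun j _ => e j⟩, by simpa [Y] using h⟩
    obtain ⟨i, hi⟩ := not_forall.1 e
    replace hi := (hR.sign' h.mem_W (hR.simple i)).resolve_right hi
    obtain ⟨l, h1, h2, h3, h4, h5⟩ := orbit hR hΓ P ho i
    obtain ⟨w', a1, a2⟩ := h.ups hR hΓ l h1 h4 fun j hj => by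
      obtain ⟨τ, rfl⟩ := h3 j hj
      have e1 := (std_cell hR hΓ (ψ := (a τ : G →* G)) (σ := (σ τ : K →+* K)) (P.std τ) h).uniq hR hΓ
        (by simpa using h.mul (hg τ) (one_mem _))
      rw [← e1, RS.mul_app, RS.mul_app, ← pq_α, RS.inv_app, pq_nonneg]
      exact hi
    have l0 := List.length_pos_of_mem h2
    have b : R.len w' ≤ R.Φ.card := by
      rw [← Set.ncard_coe_finset]
      exact Set.ncard_le_ncard (fun _ e => e.1) R.Φ.finite_toSet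
    obtain ⟨l', b1, w'', b2, b3⟩ := ih (m - 1) (by omega) a1 (fun τ => by
      rw [map_mul, h5 1 (fun τ => map_one _) τ, _root_.mul_inv_rev, mul_assoc, mul_inv_cancel_left]
      exact hg τ) (by omega)
    exact ⟨l ++ l', fun t ht τ => by rw [Y_append, map_mul, h5 t ht, b1 t ht], w'', b2, by
      rwa [Y_append, ← mul_assoc]⟩

omit P in
theorem star (hw : R.Lg Set.univ w) :
    ∃ s : Equiv.Perm (Fin R.r), Dg R s ∧ ∀ j, w (R.α j) = -R.α (s j) := by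
  choose s _ hs using fun j => hR.Lg_α hw (Set.mem_univ j)
  have inj : Function.Injective s := fun i j e =>
    RS.α_inj (w.injective (by rw [hs, hs, e]))
  refine ⟨Equiv.ofBijective s (Finite.injective_iff_bijective.1 inj), fun i j => ?_, hs⟩
  have := hR.pr_conj (mul_mem (RS.sE_mem_W (s j)) hw.1) (i := j) (j := s j)
    (by rw [RS.mul_app, hs, map_neg, hR.sE_α, neg_neg]) (R.α i)
  rw [RS.mul_app, hs, map_neg, RS.pr_neg, hR.sE_eq, sub_eq_add_neg, RS.pr_add, RS.pr_neg,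
    RS.pr_smul, RS.pr_α, RS.pr_α, RS.pr_α, hR.diag] at this
  show R.A (s i) (s j) = _
  omega

omit hR hΓ P

/-- `θ` normalises the group, and its square lies in the group -/
structure Sy (a : ι →* MulAut G) (θ : MulAut G) : Prop where
  nrm : ∀ τ, ∃ τ', a τ * θ = θ * a τ'
  sq : ∃ τ, θ * θ * a τ = 1

/-- conjugation of an automorphism by an inner automorphism -/
def cj (θ : MulAut G) (y : G) : MulAut G := (MulAut.conj y)⁻¹ * θ * MulAut.conj y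

variable {θ : MulAut G} {s : K ≃+* K}

theorem cj_apply (θ : MulAut G) (y x : G) : cj θ y x = y⁻¹ * θ (y * x * y⁻¹) * y := by
  simp [cj]

theorem Sy.cj (h : Sy a θ) (hy : ∀ τ, a τ y = y) : Sy a (cj θ y) := by
  have k : ∀ τ, Commute (a τ) (MulAut.conj y) := fun τ => MulEquiv.ext fun x => by simp [hy]
  refine ⟨fun τ => (h.nrm τ).imp fun τ' e => ?_, h.sq.imp fun τ e => ?_⟩
  · rw [P011UG.cj, ← mul_assoc, ← mul_assoc, (k τ).inv_right.eq, mul_assoc _ (a τ), e, mul_assoc,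
      mul_assoc, (k τ').eq]; group
  · rw [P011UG.cj, mul_assoc, mul_assoc _ _ (a τ), ← (k τ).eq]
    calc _ = (MulAut.conj y)⁻¹ * (θ * θ * a τ) * MulAut.conj y := by group
      _ = 1 := by rw [e]; group

theorem std_cj (h : Std Γ θ s g c π) (y : G) : Std Γ (cj θ y) s (y⁻¹ * θ y * g) c π :=
  ⟨h.1, fun i u => by
    simp only [cj_apply, map_mul, map_inv, (h.2 i u).1, (h.2 i u).2]
    constructor <;> group⟩

theorem std0 (h : Std Γ θ s g c π) : Std Γ ((MulAut.conj g)⁻¹ * θ : MulAut G) s 1 c π :=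
  ⟨h.1, fun i u => by
    simp only [MulAut.mul_apply, MulAut.conj_inv_apply, (h.2 i u).1, (h.2 i u).2]
    constructor <;> group⟩

include hR hΓ P

theorem fixA (S : Sy a θ) (h : Std Γ θ s g c π) (τ : ι) : g⁻¹ * a τ g ∈ Γ.Bo := by
  obtain ⟨τ', e⟩ := S.nrm τ
  have h0 := std0 h
  refine mem_Bo_of hR hΓ fun u hu => ?_
  have h1 := std_Bo hR hΓ (ψ := (_ : G ≃* G)) (σ := (_ : K ≃+* K)) (std_symm h0)
    (std_Bo hR hΓ (ψ := (a τ⁻¹ : G →* G)) (σ := (σ τ⁻¹ : K →+* K)) (P.std τ⁻¹) (U_le_Bo hu))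
  have h2 := std_Bo hR hΓ (ψ := (_ : G ≃* G)) (σ := (_ : K ≃+* K)) h0
    (std_Bo hR hΓ (ψ := (a τ' : G →* G)) (σ := (σ τ' : K →+* K)) (P.std τ') h1)
  simp only [MonoidHom.coe_coe, MulAut.mul_apply, MulAut.conj_inv_apply] at h2
  rw [← MulAut.mul_apply _ θ, ← e, MulAut.mul_apply, ← MulAut.inv_def, _root_.mul_inv_rev, inv_inv,
    MulAut.mul_apply, MulAut.apply_inv_self, MulAut.conj_apply, map_mul, map_mul, map_inv, map_inv,
    MulAut.apply_inv_self] at h2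
  simpa only [_root_.mul_inv_rev, inv_inv, mul_assoc] using h2

theorem finD (S : Sy a θ) (h : Std Γ θ s g c π) (hw : R.Lg Set.univ w) (hn : Γ.Rep n w)
    (hb : n⁻¹ * g ∈ Γ.Bo) : Γ.Rep g w := by
  obtain ⟨τ, e⟩ := S.sq
  have h0 := std0 h
  have B0 := fun z => std_Bo hR hΓ (ψ := (_ : G ≃* G)) (σ := (_ : K ≃+* K)) h0 (g := z)
  have h1 := std_rep hR hΓ (ψ := (_ : G ≃* G)) (σ := (_ : K ≃+* K)) h0 hn
  rw [hR.Lg_unique ⟨h1.mem_W, fun j _ => by
    rw [RS.mul_app, RS.mul_app, ← π.apply_symm_apply j, ← pq_α, RS.inv_app, pq_nonpos]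
    exact hw.2 _ trivial⟩ hw] at h1
  simp only [MonoidHom.coe_coe, MulAut.mul_apply, MulAut.conj_inv_apply] at h1 B0
  have h2 : (θ n * g)⁻¹ ∈ Γ.Bo := mem_Bo_of hR hΓ fun u hu => by
    have := B0 _ (mul_mem (mul_mem hb (B0 _ (std_Bo hR hΓ (ψ := (a τ : G →* G))
      (σ := (σ τ : K →+* K)) (P.std τ) (U_le_Bo hu)))) (inv_mem hb))
    rw [show n⁻¹ * g * (g⁻¹ * θ ((a τ : G →* G) u) * g) * (n⁻¹ * g)⁻¹ = n⁻¹ * θ (a τ u) * n by
      simp only [MonoidHom.coe_coe]; group, map_mul, map_mul, map_inv,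
      show θ (θ (a τ u)) = u from DFunLike.congr_fun e u] at this
    simpa only [_root_.mul_inv_rev, inv_inv, mul_assoc] using this
  obtain ⟨u, hu, t, ht, e1⟩ := hΓ.mem_Bo.1 ((inv_mem_iff (x := θ n * g)).1 h2)
  obtain ⟨u', hu', t', ht', e2⟩ := hΓ.mem_Bo.1 hb
  have h3 : Γ.Rep (t * (g⁻¹ * θ n * g)⁻¹) w := hR.Lg_inv hw ▸ h1.inv.T_mul ht
  have h4 : t'⁻¹ * u' * t'⁻¹⁻¹ ∈ Γ.X (R.Inv w) := by
    rw [hR.Lg_Inv hw]
    exact hΓ.nm_T_X _ _ (inv_mem ht') _ (show u' ∈ Γ.UJ Set.univ from UJ_univ (Γ := Γ) ▸ hu')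
  have e3 : g = u * (t * (g⁻¹ * θ n * g)⁻¹) * 1 := by rw [← mul_assoc u, ← e1]; group
  obtain ⟨rfl, -⟩ := hΓ.bruhat_unique hR h3 (hn.mul_T ht') hu (one_mem _) (one_mem _) h4
    (by rw [← e3, eq_inv_mul_iff_mul_eq.1 e2.symm |>.symm]; group)
  rw [e3, one_mul, mul_one]
  exact h3

end Vale.Agent.P011UG
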