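import Vale.Agent.P011U.IF

/-!
Pinned automorphisms, cells, the normaliser of the Borel subgroup.
-/

set_option autoImplicit false
set_option linter.all false

namespace Vale.Agent.P011UG

open Matrix Subgroup Vale.Agent.P183CH Vale.Agent.P183CH.RG Vale.Agent.P011U

variable {R : RS} {K G : Type} [Field K] [Group G] {Γ : RG R K G} {π : Equiv.Perm (Fin R.r)}
  {c : Fin R.r → Kˣ} {w w' : R.Aut} {γ : R.Q} {g n : G} {i j : Fin R.r}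

/-- the automorphism of the root lattice given by a permutation of the nodes -/
def pq (π : Equiv.Perm (Fin R.r)) : R.Aut := LinearEquiv.funCongrLeft ℤ ℤ π.symm

theorem pq_apply (γ : R.Q) (j : Fin R.r) : pq π γ j = γ (π.symm j) := rfl

theorem pq_α (i : Fin R.r) : pq π (R.α i) = R.α (π i) := funext fun j => by
  simp only [pq_apply, RS.α_apply, Equiv.symm_apply_eq]

theorem pq_nonneg : 0 ≤ pq π γ ↔ 0 ≤ γ :=
  ⟨fun h j => by simpa [pq_apply] using h (π j), fun h j => h _⟩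

theorem pq_nonpos : pq π γ ≤ 0 ↔ γ ≤ 0 :=
  ⟨fun h j => by simpa [pq_apply] using h (π j), fun h j => h _⟩

theorem pq_pr (h : Dg R π) (γ : R.Q) (j : Fin R.r) : R.pr (pq π γ) (π j) = R.pr γ j := by
  rw [RS.pr_eq, RS.pr_eq, ← Equiv.sum_comp π]
  simp only [pq_apply, Equiv.symm_apply_apply, h _ _]

theorem pq_sE (hR : R.Ok) (h : Dg R π) (i : Fin R.r) : pq π * R.sE i * (pq π)⁻¹ = R.sE (π i) := by
  rw [mul_inv_eq_iff_eq_mul]
  exact LinearEquiv.ext fun γ => by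
    rw [RS.mul_app, RS.mul_app, hR.sE_eq, hR.sE_eq, pq_pr h, map_sub, map_smul, pq_α]

/-- the cell of `w` -/
def Cell (Γ : RG R K G) (w : R.Aut) (g : G) : Prop :=
  ∃ a ∈ Γ.Bo, ∃ n, Γ.Rep n w ∧ ∃ b ∈ Γ.Bo, g = a * n * b

theorem Cell.mul {a b : G} (h : Cell Γ w g) (ha : a ∈ Γ.Bo) (hb : b ∈ Γ.Bo) :
    Cell Γ w (a * g * b) := by
  obtain ⟨p, hp, n, hn, q, hq, rfl⟩ := h
  exact ⟨_, mul_mem ha hp, n, hn, _, mul_mem hq hb, by group⟩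

theorem Cell.inv (h : Cell Γ w g) : Cell Γ w⁻¹ g⁻¹ := by
  obtain ⟨p, hp, n, hn, q, hq, rfl⟩ := h
  exact ⟨_, inv_mem hq, _, hn.inv, _, inv_mem hp, by group⟩

theorem Cell.mem_W (h : Cell Γ w g) : w ∈ R.W := let ⟨_, _, _, hn, _⟩ := h; hn.mem_W

section
variable (hR : R.Ok) (hΓ : Γ.Ok)
include hR hΓ

theorem exists_cell (g : G) : ∃ w, Cell Γ w g := by
  obtain ⟨u, hu, n, w, hn, v, hv, rfl⟩ := hΓ.bruhat hR g
  exact ⟨w, u, U_le_Bo hu, n, hn, v, U_le_Bo (X_le_U (RS.cl_Inv _).1 hv), rfl⟩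

theorem Cell.uniq (h : Cell Γ w g) (h' : Cell Γ w' g) : w = w' := by
  obtain ⟨p, hp, n, hn, q, hq, rfl⟩ := h
  obtain ⟨p', hp', n', hn', q', hq', e⟩ := h'
  exact hΓ.cell_eq' hR hn' hn (mul_mem (inv_mem hp) hp') (mul_mem hq' (inv_mem hq)) (by
    rw [← mul_assoc, mul_assoc p⁻¹, mul_assoc p⁻¹, ← e]; group)

theorem Cell.up (h : Cell Γ w g) (hj : 0 ≤ w (R.α j)) {t : K} (ht : t ≠ 0) :
    Cell Γ (w * R.sE j) (g * Γ.x (-R.α j) t) := by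
  obtain ⟨p, hp, n, hn, q, hq, rfl⟩ := h
  have e := hΓ.sl j (-(Units.mk0 t ht)⁻¹)
  have xU : ∀ a, Γ.x (R.α j) a ∈ Γ.U := fun a => x_mem (hR.simple j) (RS.α_nonneg j) a
  rw [show (-((-(Units.mk0 t ht)⁻¹)⁻¹ : Kˣ) : K) = t by simp, ← eq_mul_inv_iff_mul_eq,
    ← eq_inv_mul_iff_mul_eq] at e
  obtain ⟨u, hu, s, hs, e'⟩ := hΓ.mem_Bo.1 (mul_mem (mul_mem hq (inv_mem (U_le_Bo
    (xU (-(Units.mk0 t ht)⁻¹ : Kˣ))))) (T_le_Bo (h_mem j (-(Units.mk0 t ht)⁻¹))))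
  obtain ⟨a, ha, b, hb, e''⟩ := hΓ.cell_mul hR (J := Set.univ) hn ((rep_n j).T_mul hs) (by
    rw [hR.sE_inv, hR.Inv_sE, Set.disjoint_singleton_right]
    exact fun c => hR.not_both (hR.map_mem hn.mem_W c.1) hj c.2.2) hn.mem_W (RS.sE_mem_W j)
    (UJ_univ (Γ := Γ) ▸ hu)
  refine ⟨_, mul_mem hp (U_le_Bo (UJ_le _ ha)), _, hn.mul ((rep_n j).T_mul hs), _,
    mul_mem (U_le_Bo (UJ_le _ hb)) (inv_mem (U_le_Bo (xU (-(Units.mk0 t ht)⁻¹ : Kˣ)))), ?_⟩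
  rw [e, ← mul_assoc _ b, mul_assoc p a, mul_assoc p (a * _), ← e'', mul_assoc n, ← mul_assoc u, ← e']
  group

/-- The Borel subgroup is its own normaliser. -/
theorem mem_Bo_of (h : ∀ u ∈ Γ.U, g * u * g⁻¹ ∈ Γ.Bo) : g ∈ Γ.Bo := by
  obtain ⟨u, hu, n, w, hn, v, hv, rfl⟩ := hΓ.bruhat hR g
  replace hv := X_le_U (RS.cl_Inv _).1 hv
  obtain rfl : w = 1 := by
    by_contra e
    obtain ⟨j, -, hj⟩ := hR.exists_neg hn.mem_W e
    obtain ⟨a, ha⟩ := hΓ.rep_conj hR hn (hR.simple j)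
    have h1 := mul_mem (mul_mem (inv_mem (U_le_Bo hu)) (h _ (mul_mem (mul_mem (inv_mem hv)
      (x_mem (S := {γ | 0 ≤ γ}) (hR.simple j) (RS.α_nonneg j) 1)) hv))) (U_le_Bo hu)
    rw [show u⁻¹ * (u * n * v * (v⁻¹ * Γ.x (R.α j) 1 * v) * (u * n * v)⁻¹) * u =
      n * Γ.x (R.α j) 1 * n⁻¹ by group, (ha 1).1] at h1
    obtain ⟨p, hp, t, ht, e'⟩ := hΓ.mem_Bo.1 h1
    have m := hR.map_mem hn.mem_W (hR.simple j)
    obtain ⟨rfl, rfl⟩ := hΓ.tri p hp t ht (e' ▸ x_mem (S := {γ | γ ≤ 0}) m hj _)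
    exact a.ne_zero (by simpa using hΓ.x_eq_one hR m (e'.trans (one_mul 1)))
  exact mul_mem (mul_mem (U_le_Bo hu) (T_le_Bo (hΓ.rep_one hR hn))) (U_le_Bo hv)

theorem comm_neg (h : R.A i j = 0) (t u : K) : Commute (Γ.x (-R.α i) t) (Γ.x (-R.α j) u) := by
  have h' := hR.A_zero_comm.1 h
  have ne : i ≠ j := fun e => by rw [e, hR.diag] at h; omega
  have k : ∀ t u, Commute (Γ.x (R.α i) t) (Γ.x (R.α j) u) := fun t u => by
    have := hΓ.comm _ (hR.simple i) _ (hR.simple j) (RS.α_nonneg i) (RS.α_nonneg j) t u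
    refine commutatorElement_eq_one_iff_commute.1 (mem_bot.1 ((X_le ?_ : _ ≤ ⊥) this))
    rintro _ ⟨a, b, ha, hb, rfl⟩ m
    rcases (hR.sign _ (hR.map_mem (RS.sE_mem_W i) m)).2 with e | e
    · have := e i
      rw [hR.sE_eq, RS.pr_add, RS.pr_nsmul, RS.pr_nsmul] at this
      simp [RS.pr_α, hR.diag, h', RS.α_self, RS.α_ne ne] at this
      omega
    · have := e j
      simp [hR.sE_eq, RS.α_self, RS.α_ne ne.symm] at this
      omega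
  have m : Γ.Rep (Γ.n i * Γ.n j) (R.sE i * R.sE j) := (rep_n i).mul (rep_n j)
  obtain ⟨a, ha⟩ := hΓ.rep_conj hR m (hR.simple i)
  obtain ⟨b, hb⟩ := hΓ.rep_conj hR m (hR.simple j)
  have e1 : (R.sE i * R.sE j) (R.α i) = -R.α i := by
    rw [RS.mul_app, hR.sE_eq j, RS.pr_α, h, zero_smul, sub_zero, hR.sE_α]
  have e2 : (R.sE i * R.sE j) (R.α j) = -R.α j := by
    rw [RS.mul_app, hR.sE_α, map_neg, hR.sE_eq i, RS.pr_α, h', zero_smul, sub_zero]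
  have := (k ((a⁻¹ : Kˣ) * t) ((b⁻¹ : Kˣ) * u)).conj (Γ.n i * Γ.n j)
  rwa [(ha _).1, (hb _).1, e1, e2, Units.mul_inv_cancel_left, Units.mul_inv_cancel_left] at this

section
variable {ψ : G →* G} {σ : K →+* K} (h : Std Γ ψ σ 1 c π)
include h

omit hR hΓ in
theorem std_e (i : Fin R.r) (u : K) : ψ (Γ.x (R.α i) u) = Γ.x (R.α (π i)) (c i * σ u) := by
  simpa using (h.2 i u).1

omit hR hΓ in
theorem std_f (i : Fin R.r) (u : K) :
    ψ (Γ.x (-R.α i) u) = Γ.x (-R.α (π i)) ((c i)⁻¹ * σ u) := by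
  simpa using (h.2 i u).2

omit hR in
theorem std_hn (i : Fin R.r) (t : Kˣ) :
    ψ (Γ.h i t * Γ.n i) = Γ.h (π i) (c i * Units.map σ.toMonoidHom t) * Γ.n (π i) := by
  rw [← hΓ.sl, ← hΓ.sl, map_mul, map_mul, std_e h, std_f h]
  simp [mul_comm]

omit hR in
theorem std_n (i : Fin R.r) : ψ (Γ.n i) = Γ.h (π i) (c i) * Γ.n (π i) := by
  simpa using std_hn hΓ h i 1

omit hR in
theorem std_h (i : Fin R.r) (t : Kˣ) : ψ (Γ.h i t) = Γ.h (π i) (Units.map σ.toMonoidHom t) := by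
  have := std_hn hΓ h i t
  rw [map_mul, std_n hΓ h, mul_comm (c i), map_mul, mul_assoc] at this
  exact mul_right_cancel this

omit hR in
theorem std_T (hg : g ∈ Γ.T) : ψ g ∈ Γ.T :=
  (closure_le (Γ.T.comap ψ)).2 (by
    rintro _ ⟨i, t, rfl⟩
    exact mem_comap.2 (std_h hΓ h i t ▸ h_mem _ _)) hg

theorem std_rep (hn : Γ.Rep n w) : Γ.Rep (ψ n) (pq π * w * (pq π)⁻¹) :=
  hn.ind (P := fun n w => Γ.Rep (ψ n) (pq π * w * (pq π)⁻¹))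
    (fun i => by rw [std_n hΓ h, pq_sE hR h.1]; exact (rep_n _).T_mul (h_mem _ _))
    (fun t ht => by rw [mul_one, mul_inv_cancel]; exact rep_T (std_T hΓ h ht))
    (fun n w n' w' _ _ a b => by
      have := a.mul b
      rwa [← map_mul, show pq π * w * (pq π)⁻¹ * (pq π * w' * (pq π)⁻¹) =
        pq π * (w * w') * (pq π)⁻¹ by group] at this)
    fun n w _ a => by
      have := a.inv
      rwa [← map_inv, show (pq π * w * (pq π)⁻¹)⁻¹ = pq π * w⁻¹ * (pq π)⁻¹ by group] at this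

theorem std_x (hγ : γ ∈ R.Φ) (u : K) : pq π γ ∈ R.Φ ∧ ∃ u', ψ (Γ.x γ u) = Γ.x (pq π γ) u' := by
  obtain ⟨w, hw, i, rfl⟩ := hR.exists_conj hγ
  obtain ⟨n, -, hn⟩ := exists_rep' (Γ := Γ) hw
  obtain ⟨a, ha⟩ := hΓ.rep_conj hR hn (hR.simple i)
  have h1 := std_rep hR hΓ h hn
  obtain ⟨b, hb⟩ := hΓ.rep_conj hR h1 (hR.simple (π i))
  have e : (pq π * w * (pq π)⁻¹) (R.α (π i)) = pq π (w (R.α i)) := by
    rw [RS.mul_app, RS.mul_app, ← pq_α, RS.inv_app]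
  refine ⟨e ▸ hR.map_mem h1.mem_W (hR.simple _), b * (c i * σ ((a⁻¹ : Kˣ) * u)), ?_⟩
  conv_lhs => rw [← Units.mul_inv_cancel_left a u, ← (ha _).1, map_mul, map_mul, map_inv, std_e h, (hb _).1, e]

theorem std_U (hg : g ∈ Γ.U) : ψ g ∈ Γ.U :=
  X_le (K := Γ.U.comap ψ) (fun γ h1 h2 u => by
    obtain ⟨m, u', e⟩ := std_x hR hΓ h h2 u
    exact mem_comap.2 (e ▸ x_mem m (pq_nonneg.2 h1) _)) hg

theorem std_V (hg : g ∈ Γ.V) : ψ g ∈ Γ.V :=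
  X_le (K := Γ.V.comap ψ) (fun γ h1 h2 u => by
    obtain ⟨m, u', e⟩ := std_x hR hΓ h h2 u
    exact mem_comap.2 (e ▸ x_mem m (pq_nonpos.2 h1) _)) hg

theorem std_Bo (hg : g ∈ Γ.Bo) : ψ g ∈ Γ.Bo := by
  obtain ⟨u, hu, t, ht, rfl⟩ := hΓ.mem_Bo.1 hg
  exact map_mul ψ u t ▸ mul_mem (U_le_Bo (std_U hR hΓ h hu)) (T_le_Bo (std_T hΓ h ht))

theorem std_cell (hg : Cell Γ w g) : Cell Γ (pq π * w * (pq π)⁻¹) (ψ g) := by
  obtain ⟨p, hp, n, hn, q, hq, rfl⟩ := hg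
  exact ⟨_, std_Bo hR hΓ h hp, _, std_rep hR hΓ h hn, _, std_Bo hR hΓ h hq, by simp only [map_mul]⟩

end

end

theorem std_symm {ψ : G ≃* G} {σ : K ≃+* K} (h : Std Γ ψ σ 1 c π) : Std Γ ψ.symm σ.symm 1
    (fun j => Units.map (σ.symm : K →+* K).toMonoidHom (c (π.symm j))⁻¹) π.symm := by
  refine ⟨fun i j => by rw [← h.1]; simp, fun j u => ⟨?_, ?_⟩⟩ <;>
    rw [one_mul, inv_one, mul_one, MulEquiv.symm_apply_eq]
  · have := (h.2 (π.symm j) (σ.symm ((c (π.symm j))⁻¹ * u))).1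
    simp at this ⊢
    rw [this]
  · have := (h.2 (π.symm j) (σ.symm ((c (π.symm j)) * u))).2
    simp at this ⊢
    rw [this]

end Vale.Agent.P011UG
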