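import Vale.Agent.P011UG.Opp
import Vale.Agent.P011UH.Cell
import Mathlib.Algebra.MvPolynomial.Funext

/-!
The big cell is open; a fixed chamber which is opposite to its image.
-/

set_option autoImplicit false
set_option linter.all false

namespace Vale.Agent.P011UG

open Matrix Subgroup Vale.Agent.P183CH Vale.Agent.P183CH.RG Vale.Agent.P011U Vale.Agent.P011UH
  Vale.Agent.P183CH.Chev

variable {D : Chev} {K : Type} [Field K] {n g h : D.grp K} {w : D.R.Aut}

theorem dl_ne {v b : D.grp K} (hv : v ∈ (GG D K).V) (hb : b ∈ (GG D K).Bo) :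
    dl (bt D) (v * b).1.1 ≠ 0 := by
  obtain ⟨u, hu, t, ht, rfl⟩ := GG_ok.mem_Bo.1 hb
  obtain ⟨d, hd⟩ := GG_mat.diag_T ht
  have h1 : Fl (bt D) 0 (u * t).1.1 := (up_U hu).1.mul ((show t.1.1 = _ from hd) ▸ fl_dg d)
  have h2 : ∀ a, (u * t).1.1 a a ≠ 0 := fun a => Finset.prod_ne_zero_iff.1
    ((det_tr (bt D) (u := (u * t).1.1) fun a b e => or_iff_not_imp_left.2 fun c => lt_of_le_of_ne
      (by simpa using h1 _ _ e) fun e' => c (bt_inj e'.symm)).symm.trans_ne
        ((isUnit_iff_isUnit_det _).1 (u * t).1.isUnit).ne_zero) a (Finset.mem_univ a)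
  have h3 : ∀ j, (sb (bt D) j (v * (u * t)).1.1).det ≠ 0 := fun j => by
    rw [val_mul, sb_mul (lo_V hv).fl, det_mul, det_sb bt_inj (.inr (lo_V hv).fl),
      det_sb bt_inj (.inl h1)]
    simp only [(lo_V hv).dg, Finset.prod_const_one, one_mul]
    exact Finset.prod_ne_zero_iff.2 fun a _ => h2 _
  exact Finset.prod_ne_zero_iff.2 fun a _ => mul_ne_zero (h3 _) (h3 _)

theorem big [Infinite K] (hn : (GG D K).Rep n w) (hw : D.R.Lg Set.univ w) :
    dl (bt D) (n * h).1.1 ≠ 0 ↔ Cell (GG D K) w h := by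
  have k1 := fun g => GG_ok.Lg_conj (R_ok D) (g := g) hn hw
  rw [UJ_univ, VJ_univ] at k1
  refine ⟨fun e => ?_, ?_⟩
  · obtain ⟨P, h1, h2, h3⟩ := ldu bt_inj e.isUnit
    obtain ⟨v, hv, t, ht, u, hu, e1, -⟩ := cell _ e h1 h2 fun a => (h3 a).ne_zero
    refine ⟨n⁻¹ * v⁻¹ * n, U_le_Bo ((k1 _).2 (by simpa [mul_assoc] using inv_mem hv)), n⁻¹,
      (R_ok D).Lg_inv hw ▸ hn.inv, _, mul_mem (T_le_Bo ht) (U_le_Bo hu), ?_⟩
    rw [← e1]
    group
  · rintro ⟨a, ha, m, hm, b, hb, rfl⟩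
    obtain ⟨u, hu, t, ht, rfl⟩ := GG_ok.mem_Bo.1 ha
    have h1 := GG_ok.rep_one (R_ok D) ((R_ok D).Lg_mul hw hw ▸ hn.mul (hm.T_mul ht))
    have := dl_ne ((k1 u).1 hu) (mul_mem (T_le_Bo h1) hb)
    rwa [show n * u * n⁻¹ * (n * (t * m) * b) = n * (u * t * m * b) by group] at this

theorem rm_prod {Ω ι : Type} {S : Subalgebra K (Ω → K)} (l : List ι) (f : ι → Ω → D.grp K)
    (h : ∀ j, f j ∈ RM D S) : (fun x => (l.map fun j => f j x).prod) ∈ RM D S := by
  induction l with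
  | nil => exact one_mem _
  | cons j l ih =>
    simp only [List.map_cons, List.prod_cons]
    exact mul_mem (h j) ih

variable (K) in
/-- polynomial functions of two variables -/
noncomputable def S2 : Subalgebra K ((Fin 2 → K) → K) :=
  (MvPolynomial.aeval fun (i : Fin 2) (x : Fin 2 → K) => x i).range

theorem lin_S2 (d ω : K) : (fun x : Fin 2 → K => d * (x 0 + x 1 * ω)) ∈ S2 K :=
  ⟨.C d * (.X 0 + .X 1 * .C ω), funext fun x => by simp⟩

theorem dens {k : Type} [Field k] [Infinite k] [Algebra k K] {f : (Fin 2 → K) → D.grp K}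
    (hf : f ∈ RM D (S2 K)) {x : Fin 2 → K} (hx : dl (bt D) (f x).1.1 ≠ 0) :
    ∃ y : Fin 2 → k, dl (bt D) (f fun i => algebraMap k K (y i)).1.1 ≠ 0 := by
  choose q hq using ent_rm (D.nat K) nat_pol hf
  have e : ∀ x, dl (bt D) (f x).1.1 = MvPolynomial.eval x (dl (bt D) (of q)) := fun x => by
    rw [← dl_map]
    refine congrArg _ (Matrix.ext fun a b => (congrFun (hq a b) x).symm.trans ?_)
    exact (MvPolynomial.comp_aeval_apply (fun (i : Fin 2) (x : Fin 2 → K) => x i)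
      (Pi.evalAlgHom K (fun _ => K) x) (q a b)).trans (congrFun (MvPolynomial.aeval_eq_eval _) _)
  by_contra c
  refine hx ?_
  rw [e, MvPolynomial.funext_set (p := dl (bt D) (of q)) (q := 0)
    (fun _ => Set.range (algebraMap k K))
    (fun _ => Set.infinite_range_of_injective (algebraMap k K).injective) fun y hy => ?_, map_zero]
  choose z hz using fun i => hy i trivial
  rw [← e, map_zero, ← funext hz]
  exact not_not.1 fun e' => c ⟨z, e'⟩

variable {ι : Type} [Group ι] {a : ι →* MulAut (D.grp K)} {σ : ι → K ≃+* K}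
  {p : ι → Equiv.Perm (Fin D.R.r)} {θ : MulAut (D.grp K)} {s : K ≃+* K}
  {c : Fin D.R.r → Kˣ} {π : Equiv.Perm (Fin D.R.r)}

theorem opp' {k : Type} [Field k] [Infinite k] [Algebra k K]
    (ho : ∀ τ i, p τ i ≠ i → D.R.A i (p τ i) = 0) (P : Pg (GG D K) a σ p) (S : Sy a θ)
    (h : Std (GG D K) θ s g c π) (h1 : ∀ τ x, σ τ (algebraMap k K x) = algebraMap k K x)
    (h2 : ∀ x, s (algebraMap k K x) = algebraMap k K x) {ω : K} (h3 : ∀ τ, σ τ ω = ω)
    (h4 : s ω ≠ ω) : ∃ z, (∀ τ, a τ z = z) ∧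
      ∃ (π' : Equiv.Perm (Fin D.R.r)) (c' : Fin D.R.r → Kˣ), Dg D.R π' ∧ ∀ i u,
        cj θ z ((GG D K).x (D.R.α i) u) = (GG D K).x (-D.R.α (π' i)) (c' i * s u) ∧
        cj θ z ((GG D K).x (-D.R.α i) u) = (GG D K).x (D.R.α (π' i)) ((c' i)⁻¹ * s u) := by
  have := Infinite.of_injective _ (algebraMap k K).injective
  have hR := R_ok D
  obtain ⟨w, hw⟩ := exists_cell hR GG_ok g⁻¹
  obtain ⟨l, b1, w', b2, b3⟩ := reach hR GG_ok P ho D.R.Φ.card hw (fun τ => by
    simpa using inv_mem (fixA hR GG_ok P S h τ)) (Nat.le_add_left _ _)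
  obtain ⟨n, -, hn⟩ := exists_rep' (Γ := GG D K) b2.1
  have m := fun j => hR.neg_mem (hR.simple j)
  obtain ⟨y, hy⟩ := dens (k := k) (mul_mem (rm_const n) (mul_mem (mul_mem (inv_mem (rm_prod l _
    fun j => rm_x (m (π j)) (lin_S2 (c j)⁻¹.1 (s ω)))) (rm_const g⁻¹))
    (rm_prod l _ fun j => rm_x (m j) (lin_S2 1 ω))))
    (x := ![-s ω / (ω - s ω), 1 / (ω - s ω)]) (by
      have e := sub_ne_zero.2 h4.symm
      have e1 : -s ω / (ω - s ω) + 1 / (ω - s ω) * s ω = 0 := by ring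
      have e2 : -s ω / (ω - s ω) + 1 / (ω - s ω) * ω = 1 := by field_simp; ring
      have e3 : (l.map fun j => (GG D K).x (-D.R.α (π j)) 0).prod = 1 :=
        List.prod_eq_one fun x hx => by
          obtain ⟨j, -, rfl⟩ := List.mem_map.1 hx
          exact GG_ok.x_zero (m _)
      simp only [Pi.mul_apply, Pi.inv_apply, cons_val_zero, cons_val_one, e1, e2, mul_zero, mul_one,
        e3, inv_one, one_mul]
      exact (big hn b2).2 b3)
  simp only [Pi.mul_apply, Pi.inv_apply, one_mul] at hy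
  refine opp hR GG_ok P S h b2 (b1 (algebraMap k K (y 0) + algebraMap k K (y 1) * ω) fun τ => by
    rw [map_add, map_mul, h1, h1, h3]) ?_
  have e : g⁻¹ * θ (Y (GG D K) l (algebraMap k K (y 0) + algebraMap k K (y 1) * ω)) * g =
      (l.map fun j => (GG D K).x (-D.R.α (π j))
        (((c j)⁻¹ : Kˣ) * (algebraMap k K (y 0) + algebraMap k K (y 1) * s ω))).prod := by
    have := map_list_prod ((MulAut.conj g)⁻¹ * θ) (l.map fun j => (GG D K).x (-D.R.α j)
      (algebraMap k K (y 0) + algebraMap k K (y 1) * ω))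
    rw [List.map_map] at this
    refine this.trans (congrArg _ (List.map_congr_left fun j _ => ?_))
    simpa [h2] using ((std0 h).2 j (algebraMap k K (y 0) + algebraMap k K (y 1) * ω)).2
  have := (big hn b2).1 hy
  rw [← e] at this
  simpa only [_root_.mul_inv_rev, inv_inv, mul_assoc, mul_inv_cancel_left, Y] using this

end Vale.Agent.P011UG
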