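import Vale.Agent.P011UG.Big
import Vale.Agent.P011UG.Ort
import Vale.Agent.P011UC.Tr
import Vale.Agent.P011UP.Lev
import Vale.Agent.P011UQ2.Main
import Vale.Agent.P011UI.Exa
import Vale.Agent.P011UB.Main
import Vale.Agent.P011UD.Cls

/-!
A form which is quasi-split over a quadratic extension has a chamber opposite to its conjugate.
-/

set_option autoImplicit false
set_option linter.all false

namespace Vale.Agent.P011UG

open Matrix Subgroup Vale.Agent.P011L Vale.Agent.P011LD Vale.Agent.P183CH Vale.Agent.P183CH.RG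
  Vale.Agent.P011U Vale.Agent.P183CH.Chev

/-- A quasi-split form has a stable pinning. -/
theorem pin : AllI fun _ K _ _ _ D T => FixP T ∅ → ∃ ψ : D.grp K ≃* D.grp K, Pol ψ ∧ Pol ψ.symm ∧
    ∃ p : _ →* Equiv.Perm (Fin D.R.r), ∀ σ,
      Std (GG D K) (fun x => ψ (T.a σ (ψ.symm x))) σ 1 1 (p σ) := by
  intro k K _ _ _ _ _ D hD T ⟨y, hy⟩
  obtain ⟨u, -, g, c, π, h, h1⟩ := P011UP.lev' (P011UC.nfx P011UB.aut) k K D hD T ∅ y
    fun σ p hp => P011UP.cj_a T y σ p ▸ hy σ p hp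
  obtain rfl : g = 1 := funext fun σ => mem_bot.1 ((X_le fun γ e e' => by
    obtain rfl : γ = 0 := funext fun i => e i id
    exact absurd le_rfl ((R_ok D).not_both e' le_rfl) : _ ≤ ⊥) (h1 σ).1)
  obtain ⟨p, z, hp, hz, ht, hc, ho⟩ := P011UQ.nf_co hD h
  obtain rfl : π = p := funext fun σ => (hp σ).symm
  have z1 : ∀ σ τ, z σ τ = 1 := fun σ τ => hD.hT_inj (by rw [← ht, tz]; simp)
  obtain ⟨b, b0, hb⟩ := h90_perm (Γ := ⊤) p (fun σ _ τ _ => map_mul p σ τ)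
    (fun σ j => c σ ((p σ).symm j)) (fun σ _ τ _ j => by
      rw [hc, z1, map_one, one_mul, map_mul, Equiv.Perm.mul_def, Equiv.symm_trans_apply,
        Equiv.apply_symm_apply]
      rfl) ((hz.op.and ho).imp fun σ _ e => ⟨e.1.1, fun j => by rw [e.2]; rfl⟩)
  obtain ⟨ψ, p1, p2, -, hψ⟩ := P011UI.exists_dg (D := D) fun i => Units.mk0 (b i) (b0 i)
  refine ⟨(MulAut.conj (y * u)).symm.trans ψ.symm, P011UC.pol_trans (P011UC.pol_conj' _) p2,
    P011UC.pol_trans (φ := ψ) (ψ := MulAut.conj (y * u)) p1 (P011UC.pol_conj _), p,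
    fun σ => ⟨(h.1 σ).1, fun i t => ?_⟩⟩
  have e : ∀ x, ((MulAut.conj (y * u)).symm.trans ψ.symm)
      (T.a σ (((MulAut.conj (y * u)).symm.trans ψ.symm).symm x)) =
      ψ.symm ((P011UP.cj T (y * u)).a σ (ψ x)) := fun x => by
    rw [P011UP.cj_a, MulEquiv.trans_apply, MulAut.conj_symm_apply]
    rfl
  have e1 := hb σ trivial (p σ i)
  simp only [Equiv.symm_apply_apply] at e1
  simp only [e, one_mul, inv_one, mul_one, MulEquiv.symm_apply_eq, Pi.one_apply, Units.val_one]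
  constructor
  · refine ((congrArg _ (hψ i t).1).trans ((h.1 σ).2 i _).1).trans (Eq.trans ?_ (hψ _ _).1.symm)
    simp [← e1, mul_assoc]
    rfl
  · refine ((congrArg _ (hψ i t).2).trans ((h.1 σ).2 i _).2).trans (Eq.trans ?_ (hψ _ _).2.symm)
    simp [← e1, mul_assoc, mul_left_comm]
    rfl

theorem inn_of {k K : Type} [Field k] [Field K] [Infinite K] [Algebra k K] {D : Chev} (hD : SC D)
    {T T' : Tw k (D.grp K)} (e : Eqv T T') {σ : K ≃ₐ[k] K} {g g' c c' π}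
    (h : Std (GG D K) (T.a σ) σ g c 1) (h' : Std (GG D K) (T'.a σ) σ g' c' π) : π = 1 := by
  obtain ⟨ρ, -, h1⟩ := P011UQ2.eqv_std hD e
  obtain ⟨_, _, h2⟩ := h1 σ g' c' π h'
  have := (P011UQ.std_uniq GG_ok (R_ok D) h h2 (map_one σ)).1
  calc π = ρ * (ρ⁻¹ * π * ρ) * ρ⁻¹ := by group
    _ = 1 := by rw [this, mul_one, mul_inv_cancel]

/-- The normal form of the action. -/
theorem core : AllI fun k K _ _ _ D T => ∀ (L : IntermediateField k K) (T' : Tw L (D.grp K)),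
    Module.finrank k L = 2 → Res T L T' → FixP T' ∅ →
    (¬TyA D.R ∨ ∀ σ ∈ L.fixingSubgroup, ∃ g c, Std (GG D K) (T.a σ) σ g c 1) →
    ∃ (B : Tw k (D.grp K)) (s : K ≃ₐ[k] K) (p : L.fixingSubgroup → Equiv.Perm (Fin D.R.r))
      (π : Equiv.Perm (Fin D.R.r)) (c : Fin D.R.r → Kˣ), Eqv T B ∧ s ∉ L.fixingSubgroup ∧
      (∀ a b, a * b ∈ L.fixingSubgroup ↔ (a ∈ L.fixingSubgroup ↔ b ∈ L.fixingSubgroup)) ∧
      (∀ τ : L.fixingSubgroup, Std (GG D K) (B.a τ) τ.1 1 1 (p τ)) ∧ Dg D.R π ∧ ∀ i u,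
        B.a s ((GG D K).x (D.R.α i) u) = (GG D K).x (-D.R.α (π i)) (c i * s u) ∧
        B.a s ((GG D K).x (-D.R.α i) u) = (GG D K).x (D.R.α (π i)) ((c i)⁻¹ * s u) := by
  intro k K _ _ _ _ _ D hD T L T' hL hr hF hA
  have : Infinite L := Infinite.of_injective _ (algebraMap k L).injective
  have : Infinite K := Infinite.of_injective _ (algebraMap k K).injective
  have : IsSepClosure L K :=
    ⟨IsSepClosure.sep_closed k, Algebra.isSeparable_tower_top_of_isSeparable k L K⟩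
  obtain ⟨ψ, p1, p2, p, hp⟩ := pin L K D hD T' hF
  let H := L.fixingSubgroup
  have h2 : H.index = 2 := (IntermediateField.finrank_eq_fixingSubgroup_index K L).symm.trans hL
  have hm := fun a b => H.mul_mem_iff_of_index_two h2 (a := a) (b := b)
  obtain ⟨s, hs⟩ : ∃ s, s ∉ H := by
    by_contra c
    rw [index_eq_one.2 (eq_top_iff.2 fun s _ => not_not.1 fun e => c ⟨s, e⟩)] at h2
    omega
  obtain ⟨ω, h3, h4⟩ : ∃ ω ∈ L, s ω ≠ ω := by
    by_contra c
    exact hs fun x => not_not.1 fun e => c ⟨x, x.2, e⟩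
  let A := P011UC.tr T ψ p1 p2
  have P : Pg (GG D K) (A.a.comp H.subtype) (fun τ => τ.1) fun τ => p (L.fixingSubgroupEquiv τ) :=
    ⟨fun τ => by
      have := hp (L.fixingSubgroupEquiv τ)
      rw [hr] at this
      exact this, by simp, by simp⟩
  obtain ⟨g, c, π, h⟩ := P011UC.nfx P011UB.aut k K D hD A
  obtain ⟨z, h5, π', c', h6, h7⟩ := opp' (k := k) (s := s) (fun τ i e => hA.elim
    (fun a => ort cls (R_ok D) a _ i (P.std τ).1 e) fun a => by
      obtain ⟨_, _, b⟩ := a τ τ.2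
      exact absurd (DFunLike.congr_fun (inn_of hD (P011UC.eqv_tr T ψ p1 p2) b (P.std τ)) i) e) P
    ⟨fun τ => ⟨⟨s⁻¹ * (τ * s), by simp [hm, hs]⟩, by simp [← map_mul]⟩,
      ⟨(s * s)⁻¹, by simp [hm]⟩, by simp [← map_mul]⟩ (h.1 s) (fun τ => τ.1.commutes) s.commutes
    (fun τ => τ.2 ⟨ω, h3⟩) h4
  refine ⟨P011UC.cj A z, s, fun τ => p (L.fixingSubgroupEquiv τ), π', c',
    P011UC.eqv_trans (P011UC.eqv_tr T ψ p1 p2) (P011UC.eqv_cj A z), hs, hm, fun τ => ?_, h6,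
    fun i u => by rw [P011UC.cj_a, P011UC.cj_a, ← cj_apply, ← cj_apply]; exact h7 i u⟩
  rw [show (P011UC.cj A z).a τ = A.a τ from MulEquiv.ext fun x => by
    rw [P011UC.cj_a, map_mul, map_mul, map_inv, show A.a τ z = z from h5 τ]
    group]
  exact P.std τ

theorem opg : OPG := by
  intro k K _ _ _ _ _ D hD T hA L T' hL hr hF
  classical
  obtain ⟨B, s, p, π, c, h1, hs, hm, h2, h3, h4⟩ := core k K D hD T L T' hL hr hF (.inl hA)
  let ε : (K ≃ₐ[k] K) →* ℤˣ := .mk' (fun σ => if σ ∈ L.fixingSubgroup then 1 else -1) fun σ τ => by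
    by_cases a : σ ∈ L.fixingSubgroup <;> by_cases b : τ ∈ L.fixingSubgroup <;> simp [hm, a, b]
  have h9 : ∀ σ, ∃ (π : Equiv.Perm (Fin D.R.r)) (c : Fin D.R.r → Kˣ), (ε σ = 1 → c = 1) ∧
      Dg D.R π ∧ ∀ i u, B.a σ ((GG D K).x (D.R.α i) u) =
        (GG D K).x ((ε σ : ℤ) • D.R.α (π i)) (c i * σ u) ∧
      B.a σ ((GG D K).x (-D.R.α i) u) =
        (GG D K).x (-((ε σ : ℤ) • D.R.α (π i))) ((c i)⁻¹ * σ u) := fun σ => by
    by_cases a : σ ∈ L.fixingSubgroup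
    · refine ⟨_, 1, fun _ => rfl, (h2 ⟨σ, a⟩).1, fun i u => ?_⟩
      rw [show ε σ = 1 from if_pos a]
      simpa using (h2 ⟨σ, a⟩).2 i u
    · obtain ⟨τ, rfl⟩ : ∃ τ : L.fixingSubgroup, σ = s * τ :=
        ⟨⟨s⁻¹ * σ, by simp [hm, hs, a]⟩, by simp⟩
      have e : ε (s * τ) = -1 := if_neg a
      refine ⟨π * p τ, fun i => c (p τ i), fun e' => absurd (e.symm.trans e') (by decide),
        fun i j => (h3 _ _).trans ((h2 τ).1 i j), fun i u => ?_⟩
      have := (h2 τ).2 i u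
      simp only [one_mul, inv_one, mul_one, Pi.one_apply, Units.val_one] at this
      rw [e, map_mul, MulAut.mul_apply, MulAut.mul_apply, this.1, this.2, (h4 _ _).1, (h4 _ _).2]
      simp
  choose π' c' a1 a2 a3 using h9
  exact ⟨B, ε, π', c', h1, ⟨s, if_neg hs⟩, a1, a2, a3⟩

end Vale.Agent.P011UG
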