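import Vale.Agent.P011UG.Orb

/-!
A fixed chamber opposite to its image can be moved to the standard position.
-/

set_option autoImplicit false
set_option linter.all false

namespace Vale.Agent.P011UG

open Matrix Subgroup Vale.Agent.P183CH Vale.Agent.P183CH.RG Vale.Agent.P011U

variable {R : RS} {K G : Type} [Field K] [Group G] {Γ : RG R K G} {π : Equiv.Perm (Fin R.r)}
  {c : Fin R.r → Kˣ} {w : R.Aut} {g y : G} {ι : Type} [Group ι] {a : ι →* MulAut G}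
  {σ : ι → K ≃+* K} {p : ι → Equiv.Perm (Fin R.r)} {θ : MulAut G} {s : K ≃+* K}

theorem cj_cj (θ : MulAut G) (y u : G) : cj (cj θ y) u = cj θ (y * u) := by
  simp only [cj, map_mul, _root_.mul_inv_rev, mul_assoc]

variable (hR : R.Ok) (hΓ : Γ.Ok) (P : Pg Γ a σ p) (S : Sy a θ) (h : Std Γ θ s g c π)
  (hw : R.Lg Set.univ w)
include hR hΓ P S h hw

theorem finC (hg : Cell Γ w g) : ∃ u, (∀ τ, a τ u = u) ∧ Γ.Rep (u⁻¹ * θ u * g) w := by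
  obtain ⟨u, hu, n, w', hn, v, hv, e⟩ := hΓ.bruhat hR g
  have hv' := X_le_U (RS.cl_Inv _).1 hv
  obtain rfl : w' = w := Cell.uniq hR hΓ ⟨u, U_le_Bo hu, n, hn, v, U_le_Bo hv', e⟩ hg
  have k : ∀ x ∈ Γ.U, x ∈ Γ.X (R.Inv w') := fun x hx => by
    rw [hR.Lg_Inv hw]
    exact (show x ∈ Γ.UJ Set.univ from UJ_univ (Γ := Γ) ▸ hx)
  have h1 : ∀ τ, a τ u = u := fun τ => by
    have b := fixA hR hΓ P S h τ
    have q : Std Γ (a τ : G →* G) (σ τ : K →+* K) 1 1 (p τ) := P.std τ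
    have e1 := (std_cell hR hΓ q hg).uniq hR hΓ (by simpa using hg.mul (one_mem _) b)
    obtain ⟨v', h2, t, ht, e2⟩ := hΓ.mem_Bo.1 (mul_mem (U_le_Bo hv') b)
    refine (hΓ.bruhat_unique hR (e1 ▸ std_rep hR hΓ q hn) (hn.mul_T ht) (std_U hR hΓ q hu) hu
      (k _ (std_U hR hΓ q hv')) (hΓ.nm_T_X _ _ (inv_mem ht) _ (k _ h2)) ?_).1
    rw [← map_mul, ← map_mul, ← e, show u * (n * t) * (t⁻¹ * v' * t⁻¹⁻¹) = u * n * (v' * t) by group,
      ← e2, ← mul_assoc, ← e, mul_inv_cancel_left]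
    rfl
  refine ⟨u, h1, finD hR hΓ P (S.cj h1) (std_cj h u) hw hn ?_⟩
  have := mul_mem (U_le_Bo hv') (std_Bo hR hΓ (ψ := (_ : G ≃* G)) (σ := (_ : K ≃+* K)) (std0 h)
    (U_le_Bo hu))
  simp only [MonoidHom.coe_coe, MulAut.mul_apply, MulAut.conj_inv_apply] at this
  rwa [show n⁻¹ * (u⁻¹ * θ u * g) = v * (g⁻¹ * θ u * g) by
    rw [show v = n⁻¹ * u⁻¹ * g by rw [e]; group]; group]

theorem opp (hy : ∀ τ, a τ y = y) (hc : Cell Γ w (g⁻¹ * (θ y)⁻¹ * y)) :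
    ∃ z, (∀ τ, a τ z = z) ∧ ∃ (π' : Equiv.Perm (Fin R.r)) (c' : Fin R.r → Kˣ), Dg R π' ∧ ∀ i u,
      cj θ z (Γ.x (R.α i) u) = Γ.x (-R.α (π' i)) (c' i * s u) ∧
      cj θ z (Γ.x (-R.α i) u) = Γ.x (R.α (π' i)) ((c' i)⁻¹ * s u) := by
  have h1 := std_cj h y
  obtain ⟨u, h2, h3⟩ := finC hR hΓ P (S.cj hy) h1 hw (by
    simpa only [hR.Lg_inv hw, _root_.mul_inv_rev, inv_inv, mul_assoc] using hc.inv)
  have h4 := std_cj h1 u
  rw [cj_cj] at h4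
  obtain ⟨r, h5, h6⟩ := star hR hΓ hw
  choose d hd using fun i => hΓ.rep_conj hR h3 (hR.simple i)
  refine ⟨y * u, fun τ => by rw [map_mul, hy, h2], r * π, fun i => d (π i) * c i,
    fun i j => (h5 _ _).trans (h.1 i j), fun i t => ⟨?_, ?_⟩⟩
  · rw [(h4.2 i t).1, (hd _ _).1, h6, Units.val_mul, mul_assoc]
    rfl
  · rw [(h4.2 i t).2, (hd _ _).2, h6, neg_neg, mul_inv, Units.val_mul, mul_assoc]
    rfl

end Vale.Agent.P011UG
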